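import Vale.Agent.P346.Main

namespace Vale.Agent.Results.P346.A_tight

open Vale.Agent.P346

universe u

theorem result (K : Type u) [Field K] [CharZero K] :
    ∃ c C : ℝ, 0 < c ∧ ∃ n₀ : ℕ, ∀ n : ℕ, n₀ ≤ n →
      (∃ Γ : Circ K (Var n n), Γ.Homog ∧ Γ.value = IMM K n n) ∧
      (n : ℝ) ^ (c * Real.sqrt n) ≤ (minSize K n : ℝ) ∧
      (minSize K n : ℝ) ≤ (n : ℝ) ^ (C * Real.sqrt n) := by
  refine ⟨1 / 64, 8, by norm_num, max 2 ⌈Real.exp 400⌉₊, fun n hn => ?_⟩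
  have h1 : 2 ≤ n := (le_max_left _ _).trans hn
  have h2 : ⌈Real.exp 400⌉₊ ≤ n := (le_max_right _ _).trans hn
  obtain ⟨Γ, h3, h4, _⟩ := exists_circ K h1
  exact ⟨⟨Γ, h3, h4⟩, minSize_lower K h1 h2, minSize_upper K h1⟩

end Vale.Agent.Results.P346.A_tight
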